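import Mathlib

/-!
# Row 265, commutative algebra toolbox (helper60): the derivation lemma

`P` a commutative `ℚ`-algebra, `J = (y_j)`, derivations `d i` with `d i (y j) ≡ δ_ij mod J`.
If a homogeneous form `F` of degree `m` has `F(y) ∈ J^(m+1) + I^(n+m)`, then every coefficient
of `F` lies in `J + I^n` (`coeff_mem_of_eval_mem`).  Special case `I = J`/`I = ⊥`: `gr_J = Sym`.
-/

set_option autoImplicit false

namespace Crest.Agent.N265.CA

open MvPolynomial

section Der

variable {R P : Type*} [CommRing R] [CommRing P] [Algebra R P]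

/-- a derivation lowers the `I`-adic order by at most one -/
theorem der_mem_pow (D : Derivation R P P) (I : Ideal P) (n : ℕ) {x : P} (hx : x ∈ I ^ (n + 1)) :
    D x ∈ I ^ n := by
  induction n generalizing x with
  | zero => simp
  | succ n ih =>
    rw [pow_succ] at hx
    refine Submodule.mul_induction_on hx ?_ ?_
    · intro a ha b hb
      rw [D.leibniz, smul_eq_mul, smul_eq_mul]
      refine Ideal.add_mem _ (Ideal.mul_mem_right _ _ ha) ?_
      rw [pow_succ']
      exact Ideal.mul_mem_mul hb (ih ha)
    · intro a b ha hb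
      rw [map_add]
      exact Ideal.add_mem _ ha hb

theorem der_mem_pow' (D : Derivation R P P) (I : Ideal P) (n : ℕ) {x : P} (hx : x ∈ I ^ n) :
    D x ∈ I ^ (n - 1) := by
  cases n with
  | zero => simp
  | succ n => exact der_mem_pow D I n hx

variable {ι : Type*}

/-- apply a derivation to the coefficients of a polynomial -/
noncomputable def derCoeff (D : Derivation R P P) (F : MvPolynomial ι P) : MvPolynomial ι P :=
  ∑ α ∈ F.support, monomial α (D (coeff α F))

theorem coeff_derCoeff (D : Derivation R P P) (F : MvPolynomial ι P) (α : ι →₀ ℕ) :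
    coeff α (derCoeff D F) = D (coeff α F) := by
  classical
  unfold derCoeff
  rw [coeff_sum]
  simp only [coeff_monomial]
  rw [Finset.sum_ite_eq']
  split_ifs with h
  · rfl
  · rw [notMem_support_iff.1 h, map_zero]

theorem derCoeff_isHomogeneous (D : Derivation R P P) {F : MvPolynomial ι P} {m : ℕ}
    (hF : F.IsHomogeneous m) : (derCoeff D F).IsHomogeneous m := by
  intro α hα
  refine hF fun h => hα ?_
  rw [coeff_derCoeff, h, map_zero]

/-- chain rule for polynomials with coefficients in `P` -/
theorem der_eval [Fintype ι] (D : Derivation R P P) (y : ι → P) (F : MvPolynomial ι P) :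
    D (eval y F) = eval y (derCoeff D F) + ∑ j, eval y (pderiv j F) * D (y j) := by
  classical
  induction F using MvPolynomial.induction_on with
  | C a =>
    have : derCoeff D (C a : MvPolynomial ι P) = C (D a) := by
      ext α
      rw [coeff_derCoeff, coeff_C, coeff_C]
      split_ifs <;> simp
    simp [this]
  | add p q hp hq =>
    have : derCoeff D (p + q) = derCoeff D p + derCoeff D q := by
      ext α
      simp [coeff_derCoeff]
    simp only [this, map_add, hp, hq, add_mul, Finset.sum_add_distrib]
    ring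
  | mul_X p i hp =>
    have : derCoeff D (p * X i) = derCoeff D p * X i := by
      ext α
      rw [coeff_derCoeff, coeff_mul_X', coeff_mul_X']
      split_ifs <;> simp [coeff_derCoeff]
    have h2 : ∀ j, eval y (pderiv j (p * X i)) * D (y j) =
        eval y (pderiv j p) * D (y j) * y i + if i = j then eval y p * D (y i) else 0 := by
      intro j
      rw [pderiv_mul, map_add, map_mul, map_mul, eval_X, pderiv_X]
      by_cases h : i = j
      · subst h
        simp
        ring
      · simp [h]
        ring
    simp only [this, map_mul, eval_X, D.leibniz, smul_eq_mul, hp, h2, Finset.sum_add_distrib,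
      Finset.sum_ite_eq, Finset.mem_univ, if_true, ← Finset.sum_mul]
    ring

/-- the value of a form of degree `m` at elements of `J` lies in `J ^ m` -/
theorem eval_mem_pow {J : Ideal P} {y : ι → P} (hy : ∀ j, y j ∈ J) {F : MvPolynomial ι P} {m : ℕ}
    (hF : F.IsHomogeneous m) : eval y F ∈ J ^ m := by
  classical
  rw [eval_eq]
  refine Ideal.sum_mem _ fun α hα => Ideal.mul_mem_left _ _ ?_
  have hdeg : ∑ i ∈ α.support, α i = m := by
    have := hF (mem_support_iff.1 hα)
    simpa [Finsupp.weight_apply, Finsupp.sum] using this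
  rw [← hdeg, ← Finset.prod_pow_eq_pow_sum]
  exact Ideal.prod_mem_prod fun i _ => Ideal.pow_mem_pow (hy i) _

/-- `d_i (F(y)) ≡ (∂_i F)(y)` modulo `J ^ m` for a form `F` of degree `m` -/
theorem der_eval_sub_mem [Fintype ι] [DecidableEq ι] {J : Ideal P} {y : ι → P}
    (hy : ∀ j, y j ∈ J) (D : Derivation R P P) (i : ι)
    (hD : ∀ j, D (y j) - (if i = j then 1 else 0) ∈ J) {F : MvPolynomial ι P} {m : ℕ}
    (hF : F.IsHomogeneous m) : D (eval y F) - eval y (pderiv i F) ∈ J ^ m := by
  have h1 : eval y (pderiv i F) = ∑ j, eval y (pderiv j F) * (if i = j then 1 else 0) := by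
    simp
  rw [der_eval, h1, add_sub_assoc, ← Finset.sum_sub_distrib]
  refine Ideal.add_mem _ (eval_mem_pow hy (derCoeff_isHomogeneous D hF)) ?_
  refine Ideal.sum_mem _ fun j _ => ?_
  rw [← mul_sub]
  cases m with
  | zero => simp
  | succ m =>
    rw [pow_succ]
    exact Ideal.mul_mem_mul (eval_mem_pow hy (by simpa using hF.pderiv)) (hD j)

/-- **Derivation lemma.** -/
theorem coeff_mem_of_eval_mem [Algebra ℚ P] [Fintype ι] [DecidableEq ι] {J : Ideal P} {y : ι → P}
    (hy : ∀ j, y j ∈ J) (d : ι → Derivation R P P)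
    (hd : ∀ i j, d i (y j) - (if i = j then 1 else 0) ∈ J) (I : Ideal P) (n : ℕ) :
    ∀ (m : ℕ) (F : MvPolynomial ι P), F.IsHomogeneous m →
      eval y F ∈ J ^ (m + 1) ⊔ I ^ (n + m) → ∀ α, coeff α F ∈ J ⊔ I ^ n := by
  intro m
  induction m with
  | zero =>
    intro F hF h α
    have hF0 : F = C (coeff 0 F) := by
      have := hF.totalDegree_le
      exact totalDegree_eq_zero_iff_eq_C.1 (Nat.le_zero.1 this)
    by_cases hα : α = 0
    · subst hα
      rw [hF0] at h
      simpa using h
    · rw [hF0, coeff_C, if_neg (Ne.symm hα)]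
      exact Ideal.zero_mem _
  | succ m ih =>
    intro F hF h α
    by_cases h0 : coeff α F = 0
    · rw [h0]; exact Ideal.zero_mem _
    have hdeg : ∑ i ∈ α.support, α i = m + 1 := by
      have := hF h0
      simpa [Finsupp.weight_apply, Finsupp.sum] using this
    obtain ⟨i, hi⟩ : α.support.Nonempty := by
      rw [Finset.nonempty_iff_ne_empty]
      intro he
      rw [he] at hdeg
      simp at hdeg
    have hi' : 1 ≤ α i := Nat.one_le_iff_ne_zero.2 (Finsupp.mem_support_iff.1 hi)
    obtain ⟨a, ha, b, hb, hab⟩ := Submodule.mem_sup.1 h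
    have h1 : d i (eval y F) ∈ J ^ (m + 1) ⊔ I ^ (n + m) := by
      rw [← hab, map_add]
      exact Ideal.add_mem _ (Ideal.mem_sup_left (der_mem_pow _ _ _ ha))
        (Ideal.mem_sup_right (der_mem_pow _ _ _ hb))
    have h2 : eval y (pderiv i F) ∈ J ^ (m + 1) ⊔ I ^ (n + m) := by
      have h3 := der_eval_sub_mem hy (d i) i (hd i) hF
      have : eval y (pderiv i F) = d i (eval y F) - (d i (eval y F) - eval y (pderiv i F)) := by
        ring
      rw [this]
      exact Ideal.sub_mem _ h1 (Ideal.mem_sup_left h3)
    have h4 := ih (pderiv i F) (by simpa using hF.pderiv) h2 (α - Finsupp.single i 1)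
    have h5 : α - Finsupp.single i 1 + Finsupp.single i 1 = α :=
      tsub_add_cancel_of_le (Finsupp.single_le_iff.2 hi')
    rw [coeff_pderiv, h5] at h4
    set k : ℕ := (α - Finsupp.single i 1 : ι →₀ ℕ) i
    have h6 : coeff α F = coeff α F * ((k : P) + 1) * algebraMap ℚ P (1 / ((k : ℚ) + 1)) := by
      have : ((k : P) + 1) = algebraMap ℚ P ((k : ℚ) + 1) := by simp
      rw [mul_assoc, this, ← map_mul, mul_one_div_cancel (by positivity), map_one, mul_one]
    rw [h6]
    exact Ideal.mul_mem_right _ _ h4

/-- `gr_J = Sym`: a form of degree `m` with `F(y) ∈ J^(m+1)` has all coefficients in `J` -/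
theorem coeff_mem_of_eval_mem_pow [Algebra ℚ P] [Fintype ι] [DecidableEq ι] {J : Ideal P}
    {y : ι → P} (hy : ∀ j, y j ∈ J) (d : ι → Derivation R P P)
    (hd : ∀ i j, d i (y j) - (if i = j then 1 else 0) ∈ J) {m : ℕ} {F : MvPolynomial ι P}
    (hF : F.IsHomogeneous m) (h : eval y F ∈ J ^ (m + 1)) (α : ι →₀ ℕ) : coeff α F ∈ J := by
  have := coeff_mem_of_eval_mem hy d hd J 1 m F hF (Ideal.mem_sup_left h) α
  simpa using this

end Der

end Crest.Agent.N265.CA
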