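import Mathlib

/-!
# Row 265, commutative algebra toolbox (helper83): McCoy and Hilbert–Burch

Everything is over an arbitrary commutative ring.

* `mccoy` : if `M ⊗ Q` is injective, no nonzero `v : Q` is killed by all maximal minors.
* `mnr M` : the signed maximal minors of an `(n+1) × n` matrix, `mnr_vecMul`, `cramer_mnr`.
* `hilbert_burch` : `0 → R^n → R^(n+1) → R` exact  ⇒  `g = a • mnr M`, `a` a nonzero divisor.
* `hb_isUnit` : `a` is a unit when the ideal `(g)` contains a regular sequence of length two.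
* `exists_vecMul_eq_mnr_smul` : the minors kill the cokernel of the transpose.
-/

set_option autoImplicit false

namespace Crest.Agent.N265.CA

open Matrix
open scoped nonZeroDivisors

section McCoy

variable {R : Type*} [CommRing R]

/-- McCoy's theorem with coefficients in a module. -/
theorem mccoy {Q ι : Type*} [AddCommGroup Q] [Module R Q] :
    ∀ (n : ℕ) (M : Matrix ι (Fin n) R),
      (∀ x : Fin n → Q, (∀ i, ∑ j, M i j • x j = 0) → x = 0) →
      ∀ v : Q, (∀ r : Fin n → ι, (M.submatrix r id).det • v = 0) → v = 0 := by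
  intro n
  induction n with
  | zero =>
    intro M _ v hv
    have := hv Fin.elim0
    simpa using this
  | succ n ih =>
    intro M hM v hv
    refine ih (M.submatrix id Fin.succ) ?_ v ?_
    · intro x hx
      have h := hM (Fin.cons 0 x) (fun i => by
        rw [Fin.sum_univ_succ]
        simpa using hx i)
      funext j
      have := congrFun h j.succ
      simpa using this
    · intro r
      have h := hM (fun j => ((-1 : R) ^ (j : ℕ) * (M.submatrix r j.succAbove).det) • v)
        (fun i => by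
          have h1 := hv (Fin.cons i r)
          rw [det_succ_row_zero, Finset.sum_smul] at h1
          rw [← h1]
          refine Finset.sum_congr rfl fun j _ => ?_
          rw [smul_smul]
          congr 1
          have : ((M.submatrix (Fin.cons i r : Fin (n + 1) → ι) id).submatrix Fin.succ
              j.succAbove) = M.submatrix r j.succAbove := by
            ext a b
            simp
          rw [this]
          simp only [submatrix_apply, Fin.cons_zero, id]
          ring)
      have := congrFun h 0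
      simpa using this

/-- McCoy's theorem, ring form. -/
theorem mccoy_ring {ι : Type*} {n : ℕ} (M : Matrix ι (Fin n) R)
    (hM : ∀ x : Fin n → R, M *ᵥ x = 0 → x = 0) (v : R)
    (hv : ∀ r : Fin n → ι, (M.submatrix r id).det * v = 0) : v = 0 :=
  mccoy (Q := R) n M (fun x hx => hM x (funext fun i => hx i)) v hv

/-- converse of McCoy: if the maximal minors have no common annihilator, `M ⊗ Q` is injective -/
theorem inj_of_minors {Q ι : Type*} [AddCommGroup Q] [Module R Q] {n : ℕ} (M : Matrix ι (Fin n) R)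
    (h : ∀ v : Q, (∀ r : Fin n → ι, (M.submatrix r id).det • v = 0) → v = 0)
    (x : Fin n → Q) (hx : ∀ i, ∑ j, M i j • x j = 0) : x = 0 := by
  funext k
  refine h _ fun r => ?_
  have h1 : ∀ j, ∑ a, adjugate (M.submatrix r id) k a * M (r a) j
      = if k = j then (M.submatrix r id).det else 0 := by
    intro j
    have := congrFun (congrFun (adjugate_mul (M.submatrix r id)) k) j
    rw [mul_apply] at this
    simpa [one_apply] using this
  have h2 : ∑ a, adjugate (M.submatrix r id) k a • ∑ j, M (r a) j • x j = 0 := by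
    simp [hx]
  simp_rw [Finset.smul_sum, smul_smul] at h2
  rw [Finset.sum_comm] at h2
  simp_rw [← Finset.sum_smul, h1] at h2
  simpa using h2

end McCoy

section Minors

variable {R : Type*} [CommRing R] {n : ℕ}

/-- the signed maximal minors of an `(n+1) × n` matrix -/
def mnr (M : Matrix (Fin (n + 1)) (Fin n) R) (i : Fin (n + 1)) : R :=
  (-1) ^ (i : ℕ) * (M.submatrix i.succAbove id).det

/-- `y` put in front of `M` as a new column -/
def aug (y : Fin (n + 1) → R) (M : Matrix (Fin (n + 1)) (Fin n) R) :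
    Matrix (Fin (n + 1)) (Fin (n + 1)) R :=
  Matrix.of fun i => Fin.cons (y i) (M i)

theorem det_aug (y : Fin (n + 1) → R) (M : Matrix (Fin (n + 1)) (Fin n) R) :
    (aug y M).det = mnr M ⬝ᵥ y := by
  rw [det_succ_column_zero, dotProduct]
  refine Finset.sum_congr rfl fun i _ => ?_
  have : (aug y M).submatrix i.succAbove Fin.succ = M.submatrix i.succAbove id := by
    ext a b
    simp [aug]
  rw [this]
  simp only [aug, mnr, of_apply, Fin.cons_zero]
  ring

theorem map_mnr {S : Type*} [CommRing S] (f : R →+* S) (M : Matrix (Fin (n + 1)) (Fin n) R)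
    (i : Fin (n + 1)) : f (mnr M i) = mnr (M.map f) i := by
  simp only [mnr, map_mul, map_pow, map_neg, map_one, RingHom.map_det]
  rfl

theorem mnr_vecMul (M : Matrix (Fin (n + 1)) (Fin n) R) : mnr M ᵥ* M = 0 := by
  funext j
  have h : (mnr M ᵥ* M) j = mnr M ⬝ᵥ fun i => M i j := rfl
  rw [h, ← det_aug]
  refine det_zero_of_column_eq (i := 0) (j := j.succ) (Fin.succ_ne_zero j).symm ?_
  intro k
  simp [aug]

theorem mnr_dot_mulVec (M : Matrix (Fin (n + 1)) (Fin n) R) (x : Fin n → R) :
    mnr M ⬝ᵥ (M *ᵥ x) = 0 := by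
  rw [dotProduct_mulVec, mnr_vecMul, zero_dotProduct]

/-- Cramer: `Δ_j y - (Δ ⬝ y) e_j` lies in the image of `M`. -/
theorem cramer_mnr (M : Matrix (Fin (n + 1)) (Fin n) R) (y : Fin (n + 1) → R) (j : Fin (n + 1)) :
    ∃ x, M *ᵥ x = mnr M j • y - (mnr M ⬝ᵥ y) • Pi.single j (1 : R) := by
  set N := aug (Pi.single j (1 : R)) M with hN
  have hdet : N.det = mnr M j := by rw [hN, det_aug]; simp
  have h0 : cramer N y 0 = mnr M ⬝ᵥ y := by
    rw [cramer_apply, ← det_aug]
    congr 1
    ext a b
    refine Fin.cases ?_ (fun b => ?_) b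
    · simp [aug]
    · rw [updateCol_ne (Fin.succ_ne_zero b)]
      simp [hN, aug]
  refine ⟨fun k => cramer N y k.succ, ?_⟩
  have h := mulVec_cramer N y
  rw [hdet] at h
  funext i
  have hi := congrFun h i
  rw [mulVec, dotProduct, Fin.sum_univ_succ, h0] at hi
  simp only [hN, aug, of_apply, Fin.cons_zero, Fin.cons_succ, Pi.smul_apply, smul_eq_mul] at hi
  simp only [mulVec, dotProduct, Pi.sub_apply, Pi.smul_apply, smul_eq_mul, hN, aug]
  simp only [dotProduct] at hi
  linear_combination hi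

/-- a row vector killing `M` is "proportional" to the minors -/
theorem mnr_mul_dot (M : Matrix (Fin (n + 1)) (Fin n) R) (g : Fin (n + 1) → R) (hg : g ᵥ* M = 0)
    (y : Fin (n + 1) → R) (j : Fin (n + 1)) : mnr M j * (g ⬝ᵥ y) = (mnr M ⬝ᵥ y) * g j := by
  obtain ⟨x, hx⟩ := cramer_mnr M y j
  have h : g ⬝ᵥ (M *ᵥ x) = 0 := by rw [dotProduct_mulVec, hg, zero_dotProduct]
  rw [hx, dotProduct_sub, dotProduct_smul, dotProduct_smul, dotProduct_single_one] at h
  simp only [smul_eq_mul] at h
  linear_combination h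

theorem mnr_mul_comm (M : Matrix (Fin (n + 1)) (Fin n) R) (g : Fin (n + 1) → R) (hg : g ᵥ* M = 0)
    (i j : Fin (n + 1)) : mnr M j * g i = mnr M i * g j := by
  have := mnr_mul_dot M g hg (Pi.single i 1) j
  simpa using this

/-- every maximal minor is `0` or `± mnr M i` -/
theorem det_submatrix_smul_eq_zero {Q : Type*} [AddCommGroup Q] [Module R Q]
    (M : Matrix (Fin (n + 1)) (Fin n) R) (v : Q) (hv : ∀ i, mnr M i • v = 0)
    (r : Fin n → Fin (n + 1)) : (M.submatrix r id).det • v = 0 := by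
  by_cases hr : Function.Injective r
  · have hns : ¬ Function.Surjective r := fun hs => by
      have := Fintype.card_le_of_surjective r hs
      simp at this
    obtain ⟨i, hi⟩ : ∃ i, ∀ k, r k ≠ i := by
      by_contra hc
      push Not at hc
      exact hns hc
    choose σ hσ using fun k => Fin.exists_succAbove_eq (hi k)
    have hσi : Function.Injective σ := fun a b hab => hr (by rw [← hσ a, ← hσ b, hab])
    let e : Equiv.Perm (Fin n) := Equiv.ofBijective σ (Finite.injective_iff_bijective.1 hσi)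
    have h1 : M.submatrix r id = (M.submatrix i.succAbove id).submatrix e id := by
      ext a b
      simp [e, hσ]
    have h2 : (M.submatrix i.succAbove id).det • v = 0 := by
      have h3 : (M.submatrix i.succAbove id).det = (-1) ^ (i : ℕ) * mnr M i := by
        rw [mnr, ← mul_assoc, ← mul_pow]
        simp
      rw [h3, mul_smul, hv, smul_zero]
    rw [h1, det_permute, mul_smul, h2, smul_zero]
  · obtain ⟨a, b, hab, hne⟩ := Function.not_injective_iff.1 hr
    rw [det_zero_of_row_eq hne (by funext k; simp [hab]), zero_smul]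

/-- McCoy for `(n+1) × n` matrices, module form -/
theorem eq_zero_of_mnr_smul {Q : Type*} [AddCommGroup Q] [Module R Q]
    (M : Matrix (Fin (n + 1)) (Fin n) R)
    (hM : ∀ x : Fin n → Q, (∀ i, ∑ j, M i j • x j = 0) → x = 0) (v : Q)
    (hv : ∀ i, mnr M i • v = 0) : v = 0 :=
  mccoy n M hM v (det_submatrix_smul_eq_zero M v hv)

/-- McCoy for `(n+1) × n` matrices, ring form -/
theorem eq_zero_of_mnr_mul (M : Matrix (Fin (n + 1)) (Fin n) R)
    (hM : ∀ x : Fin n → R, M *ᵥ x = 0 → x = 0) (v : R) (hv : ∀ i, mnr M i * v = 0) : v = 0 :=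
  eq_zero_of_mnr_smul (Q := R) M (fun x hx => hM x (funext fun i => hx i)) v hv

/-- the minors kill the cokernel of the transpose -/
theorem exists_vecMul_eq_mnr_smul (M : Matrix (Fin (n + 1)) (Fin n) R) (i : Fin (n + 1))
    (z : Fin n → R) : ∃ y : Fin (n + 1) → R, y i = 0 ∧ y ᵥ* M = mnr M i • z := by
  set N := M.submatrix i.succAbove id with hN
  refine ⟨i.insertNth 0 (((-1 : R) ^ (i : ℕ)) • (z ᵥ* adjugate N)), by simp, ?_⟩
  have h : (z ᵥ* adjugate N) ᵥ* N = N.det • z := by
    rw [vecMul_vecMul, adjugate_mul, vecMul_smul, vecMul_one]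
  funext j
  have hj := congrFun h j
  rw [vecMul, dotProduct, Fin.sum_univ_succAbove _ i]
  rw [vecMul, dotProduct] at hj
  simp only [Fin.insertNth_apply_same, zero_mul, zero_add, Fin.insertNth_apply_succAbove,
    Pi.smul_apply, smul_eq_mul, mnr, mul_assoc] at hj ⊢
  rw [← Finset.mul_sum, ← hN, ← hj]
  rfl

end Minors

section HB

variable {R : Type*} [CommRing R] {n : ℕ}

/-- the complex stays exact when `g` is replaced by the minors -/
theorem exact_mnr (M : Matrix (Fin (n + 1)) (Fin n) R) (g : Fin (n + 1) → R)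
    (hinj : ∀ x : Fin n → R, M *ᵥ x = 0 → x = 0) (hg : g ᵥ* M = 0)
    (hex : ∀ y, g ⬝ᵥ y = 0 → ∃ x, M *ᵥ x = y) (y : Fin (n + 1) → R) (hy : mnr M ⬝ᵥ y = 0) :
    ∃ x, M *ᵥ x = y := by
  refine hex y (eq_zero_of_mnr_mul M hinj _ fun j => ?_)
  rw [mnr_mul_dot M g hg, hy, zero_mul]

/-- exactness of the dual complex `R → R^(n+1) → R^n` -/
theorem exact_dual_mnr (M : Matrix (Fin (n + 1)) (Fin n) R)
    (hinj : ∀ x : Fin n → R, M *ᵥ x = 0 → x = 0)
    (hex : ∀ y, mnr M ⬝ᵥ y = 0 → ∃ x, M *ᵥ x = y) (g : Fin (n + 1) → R) (hg : g ᵥ* M = 0) :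
    ∃ a : R, g = a • mnr M := by
  let K : Submodule R (Fin (n + 1) → R) := Submodule.span R {mnr M}
  have key : K.mkQ g = 0 := by
    refine eq_zero_of_mnr_smul M ?_ _ ?_
    · intro x hx
      choose X hX using fun j => K.mkQ_surjective (x j)
      have h1 : ∀ i, ∃ c : R, c • mnr M = ∑ j, M i j • X j := by
        intro i
        rw [← Submodule.mem_span_singleton, ← Submodule.Quotient.mk_eq_zero, ← Submodule.mkQ_apply,
          map_sum]
        simp only [map_smul]
        rw [← hx i]
        exact Finset.sum_congr rfl fun j _ => congrArg _ (hX j)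
      choose y hy using h1
      have h2 : ∀ k, M *ᵥ (fun j => X j k) = mnr M k • y := by
        intro k
        funext i
        have := congrFun (hy i) k
        simp only [Pi.smul_apply, smul_eq_mul, Finset.sum_apply] at this
        simp only [mulVec, dotProduct, Pi.smul_apply, smul_eq_mul]
        rw [← this, mul_comm]
      have h3 : mnr M ⬝ᵥ y = 0 := by
        refine eq_zero_of_mnr_mul M hinj _ fun k => ?_
        have := mnr_dot_mulVec M (fun j => X j k)
        rwa [h2, dotProduct_smul, smul_eq_mul] at this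
      obtain ⟨x', hx'⟩ := hex y h3
      have h4 : ∀ k, (fun j => X j k) - mnr M k • x' = 0 := fun k =>
        hinj _ (by rw [mulVec_sub, mulVec_smul, h2, hx', sub_self])
      funext j
      rw [← hX j, Pi.zero_apply, Submodule.mkQ_apply, Submodule.Quotient.mk_eq_zero,
        Submodule.mem_span_singleton]
      refine ⟨x' j, funext fun k => ?_⟩
      have := congrFun (h4 k) j
      simp only [Pi.sub_apply, Pi.smul_apply, smul_eq_mul, Pi.zero_apply] at this ⊢
      linear_combination -this
    · intro i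
      rw [← map_smul, Submodule.mkQ_apply, Submodule.Quotient.mk_eq_zero,
        Submodule.mem_span_singleton]
      refine ⟨g i, funext fun k => ?_⟩
      simp only [Pi.smul_apply, smul_eq_mul]
      rw [mnr_mul_comm M g hg, mul_comm]
  rw [Submodule.mkQ_apply, Submodule.Quotient.mk_eq_zero, Submodule.mem_span_singleton] at key
  obtain ⟨a, ha⟩ := key
  exact ⟨a, ha.symm⟩

/-- **Hilbert–Burch** over an arbitrary commutative ring. -/
theorem hilbert_burch (M : Matrix (Fin (n + 1)) (Fin n) R) (g : Fin (n + 1) → R)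
    (hinj : ∀ x : Fin n → R, M *ᵥ x = 0 → x = 0) (hg : g ᵥ* M = 0)
    (hex : ∀ y, g ⬝ᵥ y = 0 → ∃ x, M *ᵥ x = y) :
    ∃ a : R, a ∈ R⁰ ∧ g = a • mnr M := by
  obtain ⟨a, ha⟩ := exact_dual_mnr M hinj (exact_mnr M g hinj hg hex) g hg
  refine ⟨a, ?_, ha⟩
  rw [mem_nonZeroDivisors_iff_left]
  intro v hv
  refine eq_zero_of_mnr_mul M hinj _ fun i => ?_
  obtain ⟨x, hx⟩ := hex (Pi.single i v) (by
    rw [dotProduct_single, ha, Pi.smul_apply, smul_eq_mul, mul_right_comm, hv, zero_mul])
  have := mnr_dot_mulVec M x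
  rwa [hx, dotProduct_single] at this

/-- the Hilbert–Burch scalar is unique -/
theorem hb_unique (M : Matrix (Fin (n + 1)) (Fin n) R)
    (hinj : ∀ x : Fin n → R, M *ᵥ x = 0 → x = 0) {a b : R} (h : a • mnr M = b • mnr M) :
    a = b := by
  rw [← sub_eq_zero]
  refine eq_zero_of_mnr_mul M hinj _ fun i => ?_
  have := congrFun h i
  simp only [Pi.smul_apply, smul_eq_mul] at this
  linear_combination this

/-- if `(a) ⊇ I` and `I` contains a regular sequence of length two, `a` is a unit -/
theorem isUnit_of_regular_pair {a f₁ f₂ : R} (h₁ : a ∣ f₁) (h₂ : a ∣ f₂) (hf₁ : f₁ ∈ R⁰)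
    (hf₂ : ∀ c, f₁ ∣ f₂ * c → f₁ ∣ c) : IsUnit a := by
  obtain ⟨u, hu⟩ := h₁
  obtain ⟨w, hw⟩ := h₂
  obtain ⟨c, hc⟩ := hf₂ u ⟨w, by rw [hu, hw]; ring⟩
  have : f₁ * (a * c - 1) = 0 := by
    have h3 : f₁ = a * (f₁ * c) := by rw [← hc]; exact hu
    linear_combination -h3
  have h4 := (mem_nonZeroDivisors_iff_left.1 hf₁) _ this
  exact IsUnit.of_mul_eq_one c (by linear_combination h4)

/-- **Hilbert–Burch**, grade two: the generators are a unit multiple of the minors. -/
theorem hb_isUnit (M : Matrix (Fin (n + 1)) (Fin n) R) (g : Fin (n + 1) → R)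
    (hinj : ∀ x : Fin n → R, M *ᵥ x = 0 → x = 0) (hg : g ᵥ* M = 0)
    (hex : ∀ y, g ⬝ᵥ y = 0 → ∃ x, M *ᵥ x = y) {f₁ f₂ : R}
    (h₁ : f₁ ∈ Ideal.span (Set.range g)) (h₂ : f₂ ∈ Ideal.span (Set.range g)) (hf₁ : f₁ ∈ R⁰)
    (hf₂ : ∀ c, f₁ ∣ f₂ * c → f₁ ∣ c) : ∃ a : R, IsUnit a ∧ g = a • mnr M := by
  obtain ⟨a, -, ha⟩ := hilbert_burch M g hinj hg hex
  have hle : Ideal.span (Set.range g) ≤ Ideal.span {a} := by
    rw [Ideal.span_le]
    rintro _ ⟨i, rfl⟩
    rw [SetLike.mem_coe, Ideal.mem_span_singleton, ha]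
    exact ⟨mnr M i, rfl⟩
  exact ⟨a, isUnit_of_regular_pair (Ideal.mem_span_singleton.1 (hle h₁))
    (Ideal.mem_span_singleton.1 (hle h₂)) hf₁ hf₂, ha⟩

/-- converse of Hilbert–Burch: if the minors generate an ideal containing a regular pair, the
complex `0 → R^n → R^(n+1) → R` is exact. -/
theorem exact_of_regular_pair (M : Matrix (Fin (n + 1)) (Fin n) R) {f₁ f₂ : R}
    (h₁ : f₁ ∈ Ideal.span (Set.range (mnr M))) (h₂ : f₂ ∈ Ideal.span (Set.range (mnr M)))
    (hf₁ : f₁ ∈ R⁰) (hf₂ : ∀ c, f₁ ∣ f₂ * c → f₁ ∣ c) :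
    (∀ x : Fin n → R, M *ᵥ x = 0 → x = 0) ∧ ∀ y, mnr M ⬝ᵥ y = 0 → ∃ x, M *ᵥ x = y := by
  have hinj : ∀ x : Fin n → R, M *ᵥ x = 0 → x = 0 := by
    intro x hx
    refine inj_of_minors (Q := R) M (fun v hv => ?_) x (fun i => congrFun hx i)
    refine (mem_nonZeroDivisors_iff_left.1 hf₁) v ?_
    have : Ideal.span (Set.range (mnr M)) ≤ (Submodule.span R {v}).annihilator := by
      rw [Ideal.span_le]
      rintro _ ⟨i, rfl⟩
      rw [SetLike.mem_coe, Submodule.mem_annihilator_span_singleton, mnr, mul_smul, hv, smul_zero]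
    simpa using Submodule.mem_annihilator_span_singleton v f₁ |>.1 (this h₁)
  refine ⟨hinj, fun y hy => ?_⟩
  have hI : ∀ f ∈ Ideal.span (Set.range (mnr M)), ∃ x, M *ᵥ x = f • y := by
    intro f hf
    induction hf using Submodule.span_induction with
    | mem f hf =>
      obtain ⟨j, rfl⟩ := hf
      obtain ⟨x, hx⟩ := cramer_mnr M y j
      exact ⟨x, by rw [hx, hy, zero_smul, sub_zero]⟩
    | zero => exact ⟨0, by simp⟩
    | add f f' _ _ h h' =>
      obtain ⟨x, hx⟩ := h
      obtain ⟨x', hx'⟩ := h'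
      exact ⟨x + x', by rw [mulVec_add, hx, hx', add_smul]⟩
    | smul c f _ h =>
      obtain ⟨x, hx⟩ := h
      exact ⟨c • x, by rw [mulVec_smul, hx, smul_smul, smul_eq_mul]⟩
  obtain ⟨x₁, hx₁⟩ := hI f₁ h₁
  obtain ⟨x₂, hx₂⟩ := hI f₂ h₂
  have h3 : f₂ • x₁ - f₁ • x₂ = 0 :=
    hinj _ (by rw [mulVec_sub, mulVec_smul, mulVec_smul, hx₁, hx₂, smul_comm, sub_self])
  have h4 : ∀ j, f₁ ∣ x₁ j := fun j => hf₂ _ ⟨x₂ j, by
    have := congrFun h3 j
    simp only [Pi.sub_apply, Pi.smul_apply, smul_eq_mul, Pi.zero_apply] at this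
    linear_combination this⟩
  choose x hx using h4
  refine ⟨x, funext fun i => ?_⟩
  have h5 : x₁ = f₁ • x := funext hx
  rw [h5, mulVec_smul] at hx₁
  have := congrFun hx₁ i
  simp only [Pi.smul_apply, smul_eq_mul] at this
  rw [← sub_eq_zero]
  exact (mem_nonZeroDivisors_iff_left.1 hf₁) _ (by linear_combination this)

end HB

end Crest.Agent.N265.CA
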