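import Mathlib

/-!
# Row 265, commutative algebra toolbox (helper83): exactness spreads out from a point

For a complex of free modules `F₂ --α--> F₁ --β--> F₀` which is exact at a point `ev : R → k`,
there are `H₁, H₀` and `f` with `ev f = 1` and `α H₁ + H₀ β = f • 1` (`homotopy_at`, and
`homotopy_at_mod` when `β α = 0` only modulo an ideal).  Over a local ring `f = 1`
(`homotopy_local`): the complex is split exact and stays so after every base change.
`rank_split` : a matrix of rank `r` at the point has a generalised inverse where its rank is `≤ r`.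
-/

set_option autoImplicit false

namespace Crest.Agent.N265.CA

open Matrix Polynomial

section Homotopy

variable {R : Type*} [CommRing R]
variable {ι₀ ι₁ ι₂ : Type*} [Fintype ι₀] [Fintype ι₁] [Fintype ι₂]
  [DecidableEq ι₀] [DecidableEq ι₁]

/-- the adjugate is a polynomial in the matrix -/
theorem exists_poly_adj (φ : Matrix ι₁ ι₁ R) : ∃ q : R[X], φ * aeval φ q = φ.det • (1 : Matrix ι₁ ι₁ R) := by
  have h := aeval_self_charpoly φ
  rw [← X_mul_divX_add φ.charpoly, map_add, map_mul, aeval_X, aeval_C] at h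
  refine ⟨C (-(-1) ^ Fintype.card ι₁) * divX φ.charpoly, ?_⟩
  rw [det_eq_sign_charpoly_coeff, map_mul, aeval_C, Algebra.algebraMap_eq_smul_one,
    smul_mul_assoc, one_mul, mul_smul_comm, eq_neg_of_add_eq_zero_left h,
    Algebra.algebraMap_eq_smul_one, smul_neg, neg_smul, neg_neg, smul_smul]

omit [Fintype ι₂] in
theorem mul_aeval_of_intertwine (β : Matrix ι₀ ι₁ R) (φ : Matrix ι₁ ι₁ R) (ψ : Matrix ι₀ ι₀ R)
    (h : β * φ = ψ * β) (q : R[X]) : β * aeval φ q = aeval ψ q * β := by
  have hp : ∀ n : ℕ, β * φ ^ n = ψ ^ n * β := by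
    intro n
    induction n with
    | zero => simp
    | succ n ih => rw [pow_succ, ← Matrix.mul_assoc, ih, Matrix.mul_assoc, h, pow_succ,
        Matrix.mul_assoc]
  induction q using Polynomial.induction_on' with
  | add p q hp' hq => rw [map_add, map_add, Matrix.mul_add, Matrix.add_mul, hp', hq]
  | monomial n a =>
    rw [aeval_monomial, aeval_monomial, Algebra.algebraMap_eq_smul_one,
      Algebra.algebraMap_eq_smul_one, smul_mul_assoc, smul_mul_assoc, one_mul, one_mul,
      Matrix.mul_smul, Matrix.smul_mul, hp]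

/-- an approximate homotopy can be corrected to `det • 1` -/
theorem homotopy_det (α : Matrix ι₁ ι₂ R) (β : Matrix ι₀ ι₁ R) (hc : β * α = 0)
    (h₁ : Matrix ι₂ ι₁ R) (h₀ : Matrix ι₁ ι₀ R) :
    ∃ (H₁ : Matrix ι₂ ι₁ R) (H₀ : Matrix ι₁ ι₀ R),
      α * H₁ + H₀ * β = (α * h₁ + h₀ * β).det • (1 : Matrix ι₁ ι₁ R) := by
  obtain ⟨q, hq⟩ := exists_poly_adj (α * h₁ + h₀ * β)
  have hi : β * (α * h₁ + h₀ * β) = (β * h₀) * β := by
    rw [Matrix.mul_add, ← Matrix.mul_assoc, hc, Matrix.zero_mul, zero_add, Matrix.mul_assoc]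
  refine ⟨h₁ * aeval (α * h₁ + h₀ * β) q, h₀ * aeval (β * h₀) q, ?_⟩
  rw [← hq, Matrix.mul_assoc h₀, ← mul_aeval_of_intertwine β _ _ hi, Matrix.add_mul,
    Matrix.mul_assoc, Matrix.mul_assoc]

omit [DecidableEq ι₀] in
/-- an exact complex of vector spaces has a contracting homotopy -/
theorem homotopy_field {k : Type*} [Field k] (α : Matrix ι₁ ι₂ k) (β : Matrix ι₀ ι₁ k)
    (hex : ∀ y, β *ᵥ y = 0 → ∃ x, α *ᵥ x = y) :
    ∃ (h₁ : Matrix ι₂ ι₁ k) (h₀ : Matrix ι₁ ι₀ k), α * h₁ + h₀ * β = 1 := by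
  classical
  -- a generalised inverse of `β`
  obtain ⟨s, hs⟩ := (toLin' β).rangeRestrict.exists_rightInverse_of_surjective
    (LinearMap.range_rangeRestrict _)
  obtain ⟨p, hp⟩ := (LinearMap.range (toLin' β)).subtype.exists_leftInverse_of_injective
    (Submodule.ker_subtype _)
  set h₀ : (ι₀ → k) →ₗ[k] (ι₁ → k) := s ∘ₗ p with hh₀
  have hβ : ∀ y, β *ᵥ (y - h₀ (β *ᵥ y)) = 0 := by
    intro y
    have h1 : p (β *ᵥ y) = (toLin' β).rangeRestrict y := by
      have := LinearMap.congr_fun hp ((toLin' β).rangeRestrict y)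
      simpa using this
    have h2 := congrArg Subtype.val (LinearMap.congr_fun hs ((toLin' β).rangeRestrict y))
    rw [mulVec_sub, hh₀, LinearMap.comp_apply, h1]
    simp only [LinearMap.comp_apply, LinearMap.id_apply, LinearMap.codRestrict_apply,
      toLin'_apply, LinearMap.rangeRestrict] at h2 ⊢
    rw [h2, sub_self]
  choose x hx using fun i : ι₁ => hex _ (hβ (Pi.single i 1))
  refine ⟨Matrix.of fun a i => x i a, LinearMap.toMatrix' h₀, ?_⟩
  ext j i
  have h3 := congrFun (hx i) j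
  have h4 : (LinearMap.toMatrix' h₀ * β) j i = h₀ (β *ᵥ Pi.single i 1) j := by
    rw [← LinearMap.toMatrix'_mulVec, mulVec_mulVec, mulVec_single_one]
    rfl
  rw [Matrix.add_apply, h4, Matrix.mul_apply]
  simp only [mulVec, dotProduct, Pi.sub_apply] at h3
  simp only [of_apply]
  rw [h3, one_apply, Pi.single_apply]
  ring

/-- **exactness spreads out**: homotopy up to a function `f` with `ev f = 1` -/
theorem homotopy_at {k : Type*} [Field k] (ev : R →+* k) (hev : Function.Surjective ev)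
    (α : Matrix ι₁ ι₂ R) (β : Matrix ι₀ ι₁ R) (hc : β * α = 0)
    (hex : ∀ y, β.map ev *ᵥ y = 0 → ∃ x, α.map ev *ᵥ x = y) :
    ∃ (f : R) (H₁ : Matrix ι₂ ι₁ R) (H₀ : Matrix ι₁ ι₀ R), ev f = 1 ∧
      α * H₁ + H₀ * β = f • (1 : Matrix ι₁ ι₁ R) := by
  obtain ⟨h₁, h₀, h⟩ := homotopy_field _ _ hex
  choose sec hsec using hev
  obtain ⟨H₁, H₀, hH⟩ := homotopy_det α β hc (h₁.map sec) (h₀.map sec)
  refine ⟨_, H₁, H₀, ?_, hH⟩
  rw [RingHom.map_det, RingHom.mapMatrix_apply, Matrix.map_add _ (map_add ev), Matrix.map_mul,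
    Matrix.map_mul, Matrix.map_map, Matrix.map_map]
  have : (ev ∘ sec : k → k) = id := funext hsec
  rw [this, Matrix.map_id, Matrix.map_id, h, det_one]

/-- the same when `β α = 0` only modulo an ideal `I` killed by `ev` -/
theorem homotopy_at_mod {k : Type*} [Field k] (ev : R →+* k) (hev : Function.Surjective ev)
    (I : Ideal R) (hI : ∀ r ∈ I, ev r = 0)
    (α : Matrix ι₁ ι₂ R) (β : Matrix ι₀ ι₁ R) (hc : ∀ i j, (β * α) i j ∈ I)
    (hex : ∀ y, β.map ev *ᵥ y = 0 → ∃ x, α.map ev *ᵥ x = y) :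
    ∃ (f : R) (H₁ : Matrix ι₂ ι₁ R) (H₀ : Matrix ι₁ ι₀ R), ev f = 1 ∧
      ∀ i j, (α * H₁ + H₀ * β - f • (1 : Matrix ι₁ ι₁ R)) i j ∈ I := by
  let π := Ideal.Quotient.mk I
  let ev' : R ⧸ I →+* k := Ideal.Quotient.lift I ev hI
  have hcomp : (ev' ∘ π : R → k) = ev := funext fun r => Ideal.Quotient.lift_mk I ev hI
  obtain ⟨f, H₁, H₀, hf, hH⟩ := homotopy_at ev'
    (fun c => by obtain ⟨r, hr⟩ := hev c; exact ⟨π r, by rw [← hr]; exact congrFun hcomp r⟩)
    (α.map π) (β.map π)
    (by
      rw [← Matrix.map_mul]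
      ext i j
      exact Ideal.Quotient.eq_zero_iff_mem.2 (hc i j))
    (by rw [Matrix.map_map, Matrix.map_map, hcomp]; exact hex)
  choose sec hsec using (Ideal.Quotient.mk_surjective (I := I))
  have hs : (π ∘ sec : R ⧸ I → R ⧸ I) = id := funext hsec
  refine ⟨sec f, H₁.map sec, H₀.map sec, ?_, fun i j => ?_⟩
  · rw [← hcomp, Function.comp_apply, hsec, hf]
  · rw [← Ideal.Quotient.eq_zero_iff_mem]
    have h1 : (α * H₁.map sec + H₀.map sec * β).map π = f • (1 : Matrix ι₁ ι₁ (R ⧸ I)) := by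
      rw [Matrix.map_add _ (map_add π), Matrix.map_mul, Matrix.map_mul, Matrix.map_map,
        Matrix.map_map, hs, Matrix.map_id, Matrix.map_id, hH]
    have h2 := congrFun (congrFun h1 i) j
    rw [map_apply] at h2
    rw [Matrix.sub_apply, map_sub]
    change π _ - π _ = 0
    rw [h2, Matrix.smul_apply, Matrix.smul_apply, smul_eq_mul, smul_eq_mul, map_mul, hsec,
      Matrix.one_apply, Matrix.one_apply]
    split_ifs <;> simp

/-- over a local ring: exact modulo the maximal ideal ⇒ split exact -/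
theorem homotopy_local [IsLocalRing R] (α : Matrix ι₁ ι₂ R) (β : Matrix ι₀ ι₁ R) (hc : β * α = 0)
    (hex : ∀ y, β.map (IsLocalRing.residue R) *ᵥ y = 0 →
      ∃ x, α.map (IsLocalRing.residue R) *ᵥ x = y) :
    ∃ (H₁ : Matrix ι₂ ι₁ R) (H₀ : Matrix ι₁ ι₀ R), α * H₁ + H₀ * β = 1 := by
  obtain ⟨f, H₁, H₀, hf, h⟩ := homotopy_at _ IsLocalRing.residue_surjective α β hc hex
  have hu : IsUnit f := by
    rw [← IsLocalRing.residue_ne_zero_iff_isUnit, hf]
    exact one_ne_zero
  obtain ⟨g, hg⟩ := hu.exists_left_inv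
  refine ⟨g • H₁, g • H₀, ?_⟩
  rw [Matrix.mul_smul, Matrix.smul_mul, ← smul_add, h, smul_smul, hg, one_smul]

omit [DecidableEq ι₀] in
/-- a homotopy `f • 1` makes `f` kill the homology with coefficients in any module -/
theorem smul_mem_of_homotopy {Q : Type*} [AddCommGroup Q] [Module R Q] {α : Matrix ι₁ ι₂ R}
    {β : Matrix ι₀ ι₁ R} {H₁ : Matrix ι₂ ι₁ R} {H₀ : Matrix ι₁ ι₀ R} {f : R}
    (h : α * H₁ + H₀ * β = f • (1 : Matrix ι₁ ι₁ R)) (y : ι₁ → Q)
    (hy : ∀ a, ∑ i, β a i • y i = 0) : ∃ x : ι₂ → Q, ∀ i, ∑ b, α i b • x b = f • y i := by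
  refine ⟨fun b => ∑ j, H₁ b j • y j, fun i => ?_⟩
  have h1 : ∀ j, ∑ b, α i b * H₁ b j = (if i = j then f else 0) - ∑ a, H₀ i a * β a j := by
    intro j
    have := congrFun (congrFun h i) j
    rw [Matrix.add_apply, Matrix.mul_apply, Matrix.mul_apply, Matrix.smul_apply,
      Matrix.one_apply] at this
    rw [eq_sub_iff_add_eq, this]
    split_ifs <;> simp
  simp_rw [Finset.smul_sum, smul_smul]
  rw [Finset.sum_comm]
  simp_rw [← Finset.sum_smul, h1, sub_smul, Finset.sum_sub_distrib, Finset.sum_smul]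
  rw [Finset.sum_comm]
  simp_rw [mul_smul, ← Finset.smul_sum, hy]
  simp

end Homotopy

section Rank

variable {R : Type*} [CommRing R] {ι κ : Type*} [Fintype ι] [Fintype κ]
  [DecidableEq ι] [DecidableEq κ]

omit [DecidableEq ι] [DecidableEq κ] in
/-- a matrix of rank `r` over a field has an invertible `r × r` compression -/
theorem exists_compression {k : Type*} [Field k] (φ : Matrix κ ι k) :
    ∃ (s : Matrix ι (Fin φ.rank) k) (t : Matrix (Fin φ.rank) κ k), t * φ * s = 1 := by
  classical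
  let b : Module.Basis (Fin φ.rank) k (LinearMap.range φ.mulVecLin) := Module.finBasis k _
  choose x hx using fun a : Fin φ.rank => (b a).2
  obtain ⟨p, hp⟩ := (LinearMap.range φ.mulVecLin).subtype.exists_leftInverse_of_injective
    (Submodule.ker_subtype _)
  let t : (κ → k) →ₗ[k] (Fin φ.rank → k) := b.equivFun.toLinearMap ∘ₗ p
  refine ⟨Matrix.of fun i a => x a i, LinearMap.toMatrix' t, ?_⟩
  ext a c
  have h1 : (LinearMap.toMatrix' t * φ * Matrix.of fun i a => x a i) a c = t (φ *ᵥ x c) a := by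
    rw [← LinearMap.toMatrix'_mulVec, mulVec_mulVec]
    rfl
  have h2 : p (φ *ᵥ x c) = b c := by
    have := LinearMap.congr_fun hp (b c)
    rwa [LinearMap.comp_apply, Submodule.subtype_apply, ← hx c, mulVecLin_apply] at this
  rw [h1]
  simp only [t, LinearMap.comp_apply, h2, LinearEquiv.coe_coe, Module.Basis.equivFun_self, one_apply]
  simp [eq_comm]

omit [DecidableEq ι] [DecidableEq κ] in
/-- over a field, an invertible compression of full rank gives a generalised inverse -/
theorem mul_adj_mul_of_rank_le {k : Type*} [Field k] {r : ℕ} (φ : Matrix κ ι k)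
    (s : Matrix ι (Fin r) k) (t : Matrix (Fin r) κ k) (hr : φ.rank ≤ r)
    (hd : (t * φ * s).det ≠ 0) :
    φ * (s * (t * φ * s).adjugate * t) * φ = (t * φ * s).det • φ := by
  classical
  have hu : IsUnit (t * φ * s) := (isUnit_iff_isUnit_det _).2 (isUnit_iff_ne_zero.2 hd)
  have h1 : r ≤ (φ * s).rank := by
    have := rank_mul_le_right t (φ * s)
    rwa [← Matrix.mul_assoc, rank_of_isUnit _ hu, Fintype.card_fin] at this
  have h2 : LinearMap.range (φ * s).mulVecLin = LinearMap.range φ.mulVecLin := by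
    refine Submodule.eq_of_le_of_finrank_le ?_ (hr.trans h1)
    rw [mulVecLin_mul]
    exact LinearMap.range_comp_le_range _ _
  refine Matrix.ext_of_mulVec_single fun j => ?_
  obtain ⟨z, hz⟩ : φ *ᵥ Pi.single j 1 ∈ LinearMap.range (φ * s).mulVecLin := by
    rw [h2]; exact ⟨_, rfl⟩
  rw [mulVecLin_apply] at hz
  rw [smul_mulVec, ← mulVec_mulVec, ← hz, mulVec_mulVec]
  have : φ * (s * (t * φ * s).adjugate * t) * (φ * s) = (t * φ * s).det • (φ * s) := by
    have h3 : φ * (s * (t * φ * s).adjugate * t) * (φ * s)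
        = φ * s * ((t * φ * s).adjugate * (t * φ * s)) := by
      simp only [Matrix.mul_assoc]
    rw [h3, adjugate_mul, Matrix.mul_smul, Matrix.mul_one]
  rw [this, smul_mulVec]

omit [DecidableEq ι] [DecidableEq κ] in
/-- **constant rank**: near a point `ev`, on the locus where the rank does not jump up, there is a
polynomial generalised inverse `ψ` with denominator `f`: `φ ψ φ = f φ`; and where `f ≠ 0` the rank
is at least the rank at `ev`. -/
theorem rank_split {k : Type*} [Field k] (ev : R →+* k) (hev : Function.Surjective ev)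
    (φ : Matrix κ ι R) :
    ∃ (f : R) (ψ : Matrix ι κ R), ev f = 1 ∧ ∀ ev' : R →+* k,
      (ev' f ≠ 0 → (φ.map ev).rank ≤ (φ.map ev').rank) ∧
      ((φ.map ev').rank ≤ (φ.map ev).rank → (φ * ψ * φ).map ev' = ev' f • φ.map ev') := by
  classical
  obtain ⟨s, t, hst⟩ := exists_compression (φ.map ev)
  choose sec hsec using hev
  have hs : (ev ∘ sec : k → k) = id := funext hsec
  set N := t.map sec * φ * s.map sec with hN
  have hmap : ∀ ev' : R →+* k,
      N.map ev' = (t.map sec).map ev' * φ.map ev' * (s.map sec).map ev' := by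
    intro ev'
    rw [hN, Matrix.map_mul, Matrix.map_mul]
  have hdet : ∀ ev' : R →+* k, ev' N.det = (N.map ev').det := fun ev' => by
    rw [RingHom.map_det, RingHom.mapMatrix_apply]
  refine ⟨N.det * N.det, N.det • (s.map sec * N.adjugate * t.map sec), ?_, fun ev' => ⟨?_, ?_⟩⟩
  · rw [map_mul, hdet, hmap, Matrix.map_map, Matrix.map_map, hs, Matrix.map_id, Matrix.map_id, hst,
      det_one, mul_one]
  · intro h
    rw [map_mul, hdet] at h
    have hu : IsUnit (N.map ev') :=
      (isUnit_iff_isUnit_det _).2 (isUnit_iff_ne_zero.2 (left_ne_zero_of_mul h))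
    have h1 := rank_of_isUnit _ hu
    rw [Fintype.card_fin, hmap] at h1
    rw [← h1]
    exact (rank_mul_le_left _ _).trans (rank_mul_le_right _ _)
  · intro h
    have hsm : ∀ A : Matrix κ ι R, (N.det • A).map ev' = ev' N.det • A.map ev' := fun A => by
      ext a b
      simp
    rw [Matrix.mul_smul, Matrix.smul_mul, hsm, map_mul]
    by_cases h0 : ev' N.det = 0
    · rw [h0, mul_zero, zero_smul, zero_smul]
    · rw [mul_smul]
      congr 1
      have hadj : N.adjugate.map ev' = (N.map ev').adjugate := by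
        have := RingHom.map_adjugate ev' N
        simpa using this
      rw [Matrix.map_mul, Matrix.map_mul, Matrix.map_mul, Matrix.map_mul, hadj, hdet, hmap]
      exact mul_adj_mul_of_rank_le _ _ _ h (by rw [← hmap, ← hdet]; exact h0)

end Rank

end Crest.Agent.N265.CA
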